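import Vale.Agent.P092.H483.LineA
import Vale.Agent.P092.H962.C.Amp

/-!
P092, Team C, all amplifications: copy for the picture `PicX` (existential form of `inv`).
P092, TEAM C, block [C-LINE] (helper483), abstract form: from the vanishing off the diagonal of
directions (`van`), a Moore property and the absence of invariant measures to the family of a line.
-/

set_option linter.all false

open scoped InnerProductSpace ENNReal
open Filter Topology ContinuousLinearMap TopologicalSpace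

namespace Vale.Agent.P092.TX.H483

open Vale.Agent.P092.H483

open Vale.Agent.P092.SR (CO)
open Vale.Agent.P092.H820 (Cpv)
open Vale.Agent.P092.RC

/-! ### Projections and invariant subspaces -/

section inv

variable {K : Type} [NormedAddCommGroup K] [InnerProductSpace ℂ K] [CompleteSpace K]

theorem proj_comm (N : Submodule ℂ K) [N.HasOrthogonalProjection] {T : K →L[ℂ] K}
    (h1 : ∀ ξ ∈ N, T ξ ∈ N) (h2 : ∀ ξ ∈ N, adjoint T ξ ∈ N) :
    N.starProjection * T = T * N.starProjection := by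
  have key : ∀ S : K →L[ℂ] K, (∀ ξ ∈ N, S ξ ∈ N) →
      N.starProjection * (S * N.starProjection) = S * N.starProjection := by
    intro S hS
    ext ξ
    show N.starProjection (S (N.starProjection ξ)) = S (N.starProjection ξ)
    exact Submodule.starProjection_eq_self_iff.2 (hS _ (Submodule.starProjection_apply_mem _ _))
  have e1 := key T h1
  have e2 := congrArg star (key (adjoint T) h2)
  have hs : star N.starProjection = N.starProjection := isSelfAdjoint_starProjection N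
  rw [star_mul, star_mul, hs, ← star_eq_adjoint, star_star] at e2
  rw [← e2, mul_assoc, e1]

/-- the agreement space of two families -/
def agr {ι : Type} (P P' : ι → (K →L[ℂ] K)) : Submodule ℂ K where
  carrier := {ξ | ∀ A, P A ξ = P' A ξ}
  add_mem' := by
    intro a b ha hb A
    rw [map_add, map_add, ha A, hb A]
  zero_mem' := by
    intro A
    rw [map_zero, map_zero]
  smul_mem' := by
    intro c a ha A
    rw [map_smul, map_smul, ha A]

theorem agr_closed {ι : Type} (P P' : ι → (K →L[ℂ] K)) : IsClosed (agr P P' : Set K) := by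
  have : (agr P P' : Set K) = ⋂ A, {ξ | P A ξ = P' A ξ} := by
    ext ξ
    simp only [Set.mem_iInter, Set.mem_setOf_eq]
    rfl
  rw [this]
  exact isClosed_iInter fun A => isClosed_eq (P A).continuous (P' A).continuous

instance {ι : Type} (P P' : ι → (K →L[ℂ] K)) : CompleteSpace (agr P P') :=
  (agr_closed P P').completeSpace_coe

theorem agr_inv {ι : Type} {P P' : ι → (K →L[ℂ] K)} {T : K →L[ℂ] K}
    (h : ∀ A, ∃ B, P A * T = T * P B ∧ P' A * T = T * P' B) : ∀ ξ ∈ agr P P', T ξ ∈ agr P P' := by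
  intro ξ hξ A
  obtain ⟨B, h1, h2⟩ := h A
  have e1 : P A (T ξ) = T (P B ξ) := DFunLike.congr_fun h1 ξ
  have e2 : P' A (T ξ) = T (P' B ξ) := DFunLike.congr_fun h2 ξ
  rw [e1, e2, hξ B]

end inv

/-! ### Elementary facts -/

section elem

variable {G K : Type} [Group G] [NormedAddCommGroup K] [InnerProductSpace ℂ K] [CompleteSpace K]
  {π : G →* (K →L[ℂ] K)}

theorem pi_inv (g : G) : π g * π g⁻¹ = 1 := by rw [← map_mul, mul_inv_cancel, map_one]

theorem inv_pi (g : G) : π g⁻¹ * π g = 1 := by rw [← map_mul, inv_mul_cancel, map_one]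

theorem conj_iff (g : G) (S T : K →L[ℂ] K) : π g * S * π g⁻¹ = T ↔ π g * S = T * π g := by
  constructor
  · intro h
    rw [← h, mul_assoc _ (π g⁻¹), inv_pi, mul_one]
  · intro h
    rw [h, mul_assoc, pi_inv, mul_one]

end elem

section main

variable {G Γ Y G₀ D L K : Type} [Group G] [TopologicalSpace G] [Group Γ] [TopologicalSpace Y]
  [MulAction G Y] [ContinuousConstSMul G Y] [Group G₀] [TopologicalSpace G₀] [TopologicalSpace D]
  [MulAction G₀ D] [TopologicalSpace L] [MulAction G L] [ContinuousConstSMul G L]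
  [NormedAddCommGroup K] [InnerProductSpace ℂ K] [CompleteSpace K]

/-! ### The space `Z` -/

theorem c_one {c : G → Y → G₀} {y₀ : Y} (hg : Geo c y₀) (y : Y) : c 1 y = 1 := by
  have := hg.mul 1 1 y
  rw [one_mul, one_smul] at this
  exact left_eq_mul.1 this

/-- the action of `G` on `Z` as a homeomorphism -/
def zH {c : G → Y → G₀} {y₀ : Y} (hg : Geo c y₀) (g : G) : Y × G₀ ≃ₜ Y × G₀ :=
  haveI := hg.tg₀
  { toFun := zact c g
    invFun := zact c g⁻¹
    left_inv := by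
      intro z
      have e := hg.mul g⁻¹ g z.1
      rw [inv_mul_cancel, c_one hg] at e
      ext1
      · show g⁻¹ • g • z.1 = z.1
        rw [inv_smul_smul]
      · show c g⁻¹ (g • z.1) * (c g z.1 * z.2) = z.2
        rw [← mul_assoc, ← e, one_mul]
    right_inv := by
      intro z
      have e := hg.mul g g⁻¹ z.1
      rw [mul_inv_cancel, c_one hg] at e
      ext1
      · show g • g⁻¹ • z.1 = z.1
        rw [smul_inv_smul]
      · show c g (g⁻¹ • z.1) * (c g⁻¹ z.1 * z.2) = z.2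
        rw [← mul_assoc, ← e, one_mul]
    continuous_toFun := by
      refine (Continuous.prodMk ?_ ?_)
      · exact (continuous_const_smul g).comp continuous_fst
      · exact ((hg.cont.comp (continuous_const.prodMk continuous_fst))).mul continuous_snd
    continuous_invFun := by
      refine (Continuous.prodMk ?_ ?_)
      · exact (continuous_const_smul g⁻¹).comp continuous_fst
      · exact ((hg.cont.comp (continuous_const.prodMk continuous_fst))).mul continuous_snd }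

/-- right translation as a homeomorphism -/
def zR {c : G → Y → G₀} {y₀ : Y} (hg : Geo c y₀) (h : G₀) : Y × G₀ ≃ₜ Y × G₀ :=
  haveI := hg.tg₀
  { toFun := fun z => zr z h
    invFun := fun z => zr z h⁻¹
    left_inv := by
      intro z
      ext1
      · rfl
      · show z.2 * h * h⁻¹ = z.2
        rw [mul_inv_cancel_right]
    right_inv := by
      intro z
      ext1
      · rfl
      · show z.2 * h⁻¹ * h = z.2
        rw [inv_mul_cancel_right]
    continuous_toFun := continuous_fst.prodMk (continuous_snd.mul continuous_const)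
    continuous_invFun := continuous_fst.prodMk (continuous_snd.mul continuous_const) }

/-- the line through `z` with direction `m` -/
def sl (ln : Y → D → L) (d : D → D) (m : D) (z : Y × G₀) : L := ln z.1 (z.2 • d m)

variable {c : G → Y → G₀} {y₀ : Y} {ln : Y → D → L} {inc : Set (Y × L)} {d : D → D}

theorem sl_cont (hl : LGeo c ln inc) (m : D) : Continuous (sl (G₀ := G₀) ln d m) := by
  refine hl.cont.comp (continuous_fst.prodMk ?_)
  exact hl.cactD.comp (continuous_snd.prodMk continuous_const)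

theorem sl_act (hl : LGeo c ln inc) (m : D) (g : G) (z : Y × G₀) :
    sl ln d m (zact c g z) = g • sl ln d m z := by
  show ln (g • z.1) ((c g z.1 * z.2) • d m) = g • ln z.1 (z.2 • d m)
  rw [hl.eqv, mul_smul]

/-! ### The box -/

variable {π : G →* (K →L[ℂ] K)} {lam : Γ →* (K →L[ℂ] K)} {W W' : Set (K →L[ℂ] K)} {Ω : K}
  {q : Γ →* G} {E : Clopens Y → (K →L[ℂ] K)} {δ : G → G₀} {Q : Set (Y × G₀) → (K →L[ℂ] K)}

theorem qf (hz : ZFam π lam W' Ω q c y₀ E δ Q) : QF Q := ⟨hz.adj, hz.mul, hz.add, hz.nondeg⟩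

theorem qf_conj (hp : PicX π lam W Ω) (hz : ZFam π lam W' Ω q c y₀ E δ Q) (g : G) :
    QF (fun C => π g * Q C * π g⁻¹) := (qf hz).conj (hp.adjP g) (inv_pi g) (pi_inv g)

section t2

variable [T2Space (Y × G₀)]

theorem E_eq (hE : Cpv E) (hz : ZFam π lam W' Ω q c y₀ E δ Q) (A : Clopens Y) :
    E A = pf Q Prod.fst A := by
  refine pf_unique (qf hz) continuous_fst fun C hC => ?_
  have := congrArg star (hz.base A C hC)
  rw [star_mul, hE.sa, star_eq_adjoint, star_eq_adjoint, hz.adj C hC,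
    hz.adj _ (co_pre hC continuous_fst A)] at this
  exact this

theorem pf_pi {X : Type} [TopologicalSpace X] (hp : PicX π lam W Ω)
    (hz : ZFam π lam W' Ω q c y₀ E δ Q) (g : G) {s : Y × G₀ → X} (hs : Continuous s)
    (B : Clopens X) : pf (fun C => π g * Q C * π g⁻¹) s B = π g * pf Q s B * π g⁻¹ :=
  (pf_conj (qf hz) (qf_conj hp hz g) hs hs (Homeomorph.refl _) (fun z => Iff.rfl) (inv_pi g)
    (fun C hC => by
      show _ = π g * Q (id '' C) * π g⁻¹
      rw [Set.image_id])).symm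

/-- covariance -/
theorem F_cov (hg : Geo c y₀) (hl : LGeo c ln inc) (hz : ZFam π lam W' Ω q c y₀ E δ Q) (m : D)
    (γ : Γ) (B : Clopens L) :
    lam γ * pf Q (sl ln d m) B * lam γ⁻¹ = pf Q (sl ln d m) (sm (q γ) B) := by
  refine pf_conj (qf hz) (qf hz) (sl_cont hl m) (sl_cont hl m) (zH hg (q γ)) (fun z => ?_)
    (inv_pi γ) (fun C hC => hz.cov γ C hC)
  show (q γ)⁻¹ • sl ln d m (zact c (q γ) z) ∈ B ↔ _
  rw [sl_act hl, inv_smul_smul]

/-- the stabiliser of the base point moves the directions -/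
theorem F_par (hg : Geo c y₀) (hl : LGeo c ln inc) (hz : ZFam π lam W' Ω q c y₀ E δ Q)
    (hd : ∀ p : G, p • y₀ = y₀ → ∀ m, d (c p y₀ • m) = δ p • d m) (m : D) {p : G}
    (hp : p • y₀ = y₀) (B : Clopens L) :
    π p * pf Q (sl ln d m) B * π p⁻¹ = pf Q (sl ln d (c p y₀ • m)) B := by
  refine pf_conj (qf hz) (qf hz) (sl_cont hl m) (sl_cont hl _) (zR hg (δ p)⁻¹) (fun z => ?_)
    (inv_pi p) (fun C hC => hz.par p hp C hC)
  show ln z.1 ((z.2 * (δ p)⁻¹) • d (c p y₀ • m)) ∈ B ↔ ln z.1 (z.2 • d m) ∈ B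
  rw [hd p hp, mul_smul, inv_smul_smul]

end t2

/-- **No agreement.** -/
theorem agr_bot (hp : PicX π lam W Ω) (hE : Lim π lam W q y₀ E)
    (ni : ∀ φ : Clopens Y → ℝ, (∀ U, 0 ≤ φ U) → (∀ U V, Disjoint U V → φ (U ⊔ V) = φ U + φ V) →
      φ ⊤ = 1 → (∀ γ U, φ (sm (q γ) U) = φ U) → False) {g : G}
    (mo : Moore {p : G | p • y₀ = y₀ ∧ p • g • y₀ = g • y₀})
    (mx : ∀ H : Subgroup G, (∀ p : G, p • y₀ = y₀ → p ∈ H) → g ∈ H → H = ⊤) {ζ : K}
    (hζ : ∀ A, E A ζ = (π g * E A * π g⁻¹) ζ) : ζ = 0 := by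
  have hcpv := hE.cpv
  set E' : Clopens Y → (K →L[ℂ] K) := fun A => π g * E A * π g⁻¹ with hE'
  set N := agr E E' with hN
  set R := N.starProjection with hR
  have hζN : ζ ∈ N := hζ
  -- commutation with `W`
  have cW' : ∀ w ∈ W, ∀ A, E' A * w = w * E' A := by
    intro w hw A
    have h1 : π g⁻¹ * w * π (g⁻¹)⁻¹ ∈ W := hp.WP w hw g⁻¹
    rw [inv_inv] at h1
    have h2 := hE.cm A _ h1
    calc π g * E A * π g⁻¹ * w = π g * E A * π g⁻¹ * w * (π g * π g⁻¹) := by
          rw [pi_inv, mul_one]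
      _ = π g * (E A * (π g⁻¹ * w * π g)) * π g⁻¹ := by simp only [mul_assoc]
      _ = π g * ((π g⁻¹ * w * π g) * E A) * π g⁻¹ := by rw [h2]
      _ = (π g * π g⁻¹) * w * (π g * E A * π g⁻¹) := by simp only [mul_assoc]
      _ = w * (π g * E A * π g⁻¹) := by rw [pi_inv, one_mul]
  have cW : Cm W R := by
    intro w hw
    refine proj_comm N (agr_inv fun A => ⟨A, hE.cm A w hw, cW' w hw A⟩)
      (agr_inv fun A => ⟨A, hE.cm A _ (hp.Wadj w hw), cW' _ (hp.Wadj w hw) A⟩)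
  -- commutation with `lam`
  have clam : ∀ γ, ∀ A, ∃ B, E A * lam γ = lam γ * E B ∧ E' A * lam γ = lam γ * E' B := by
    intro γ A
    refine ⟨sm (q γ⁻¹) A, ?_, ?_⟩
    · rw [← hE.cov γ⁻¹ A, inv_inv]
      rw [← mul_assoc, ← mul_assoc, pi_inv, one_mul]
    · have e : E' (sm (q γ⁻¹) A) = lam γ⁻¹ * E' A * lam γ := by
        show π g * E (sm (q γ⁻¹) A) * π g⁻¹ = lam γ⁻¹ * (π g * E A * π g⁻¹) * lam γ
        rw [← hE.cov γ⁻¹ A, inv_inv]
        calc π g * (lam γ⁻¹ * E A * lam γ) * π g⁻¹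
            = (π g * lam γ⁻¹) * E A * (lam γ * π g⁻¹) := by simp only [mul_assoc]
          _ = (lam γ⁻¹ * π g) * E A * (π g⁻¹ * lam γ) := by rw [hp.comm, hp.comm g⁻¹ γ]
          _ = _ := by simp only [mul_assoc]
      rw [e, ← mul_assoc, ← mul_assoc, pi_inv, one_mul]
  have cL : ∀ γ, R * lam γ = lam γ * R := by
    intro γ
    refine proj_comm N (agr_inv (clam γ)) ?_
    rw [hp.adjL]
    exact agr_inv (clam γ⁻¹)
  -- commutation with `S`
  have cp : ∀ p : G, p • y₀ = y₀ → p • g • y₀ = g • y₀ → ∀ A, E A * π p = π p * E A ∧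
      E' A * π p = π p * E' A := by
    intro p h1 h2 A
    refine ⟨(hE.par p h1 A).symm, ?_⟩
    have h3 : (g⁻¹ * p * g) • y₀ = y₀ := by
      rw [mul_smul, mul_smul, h2, inv_smul_smul]
    have h4 := hE.par _ h3 A
    have h5 : π (g⁻¹ * p * g) = π g⁻¹ * π p * π g := by rw [map_mul, map_mul]
    rw [h5] at h4
    calc π g * E A * π g⁻¹ * π p = π g * E A * π g⁻¹ * π p * (π g * π g⁻¹) := by
          rw [pi_inv, mul_one]
      _ = π g * (E A * (π g⁻¹ * π p * π g)) * π g⁻¹ := by simp only [mul_assoc]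
      _ = π g * ((π g⁻¹ * π p * π g) * E A) * π g⁻¹ := by rw [h4]
      _ = (π g * π g⁻¹) * π p * (π g * E A * π g⁻¹) := by simp only [mul_assoc]
      _ = π p * (π g * E A * π g⁻¹) := by rw [pi_inv, one_mul]
  have cS : ∀ p ∈ {p : G | p • y₀ = y₀ ∧ p • g • y₀ = g • y₀}, R * π p = π p * R := by
    rintro p ⟨h1, h2⟩
    have h3 : p⁻¹ • y₀ = y₀ := by rw [inv_smul_eq_iff, h1]
    have h4 : p⁻¹ • g • y₀ = g • y₀ := by rw [inv_smul_eq_iff, h2]
    refine proj_comm N (agr_inv fun A => ⟨A, cp p h1 h2 A⟩) ?_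
    rw [hp.adjP]
    exact agr_inv fun A => ⟨A, cp p⁻¹ h3 h4 A⟩
  obtain ⟨z, hz⟩ := hp.erg _ mo R cW cL cS
  have hRζ : R ζ = ζ := Submodule.starProjection_eq_self_iff.2 hζN
  by_cases hz0 : z = 0
  · rw [hz, hz0, zero_smul] at hRζ
    exact hRζ.symm
  · exfalso
    have hall : ∀ ξ : K, ξ ∈ N := by
      intro ξ
      have h1 : R ξ ∈ N := Submodule.starProjection_apply_mem _ _
      rw [hz] at h1
      have h2 : z⁻¹ • ((z • (1 : K →L[ℂ] K)) ξ) ∈ N := N.smul_mem _ h1
      have h3 : z⁻¹ • ((z • (1 : K →L[ℂ] K)) ξ) = ξ := by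
        show z⁻¹ • (z • ξ) = ξ
        rw [smul_smul, inv_mul_cancel₀ hz0, one_smul]
      rwa [h3] at h2
    have hEE : ∀ A, E A = π g * E A * π g⁻¹ := by
      intro A
      ext ξ
      exact hall ξ A
    let H : Subgroup G :=
      { carrier := {h | ∀ A, π h * E A = E A * π h}
        mul_mem' := by
          intro a b ha hb A
          rw [map_mul, mul_assoc, hb A, ← mul_assoc, ha A, mul_assoc]
        one_mem' := by
          intro A
          rw [map_one, one_mul, mul_one]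
        inv_mem' := by
          intro a ha A
          have h1 := ha A
          calc π a⁻¹ * E A = π a⁻¹ * (E A * π a) * π a⁻¹ := by
                rw [← mul_assoc, mul_assoc _ (π a), pi_inv, mul_one]
            _ = π a⁻¹ * (π a * E A) * π a⁻¹ := by rw [h1]
            _ = E A * π a⁻¹ := by rw [← mul_assoc, inv_pi, one_mul] }
    have hH : H = ⊤ := mx H (fun p h A => hE.par p h A) (fun A => (conj_iff g _ _).1 (hEE A).symm)
    have hcomm : ∀ h A, E A * π h = π h * E A := by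
      intro h A
      have : h ∈ H := by rw [hH]; trivial
      exact (this A).symm
    obtain ⟨Ωn, hnn, hin⟩ := hp.inv
    have hre : ∀ A, (⟪Ωn, E A Ωn⟫_ℂ).re = ‖E A Ωn‖ ^ 2 := by
      intro A
      have h1 : E A Ωn = E A (E A Ωn) := by
        have := hcpv.idem A
        exact (DFunLike.congr_fun this Ωn).symm
      have h2 : adjoint (E A) = E A := by
        rw [← star_eq_adjoint]; exact hcpv.sa A
      have h3 := adjoint_inner_left (E A) (E A Ωn) Ωn
      rw [h2] at h3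
      rw [h1, ← h3]
      rw [inner_self_eq_norm_sq_to_K, ← h1]
      norm_cast
    refine ni (fun A => (⟪Ωn, E A Ωn⟫_ℂ).re) (fun A => ?_) (fun A B hAB => ?_) ?_ (fun γ A => ?_)
    · show 0 ≤ (⟪Ωn, E A Ωn⟫_ℂ).re
      rw [hre]
      positivity
    · show (⟪Ωn, E (A ⊔ B) Ωn⟫_ℂ).re = (⟪Ωn, E A Ωn⟫_ℂ).re + (⟪Ωn, E B Ωn⟫_ℂ).re
      rw [hcpv.add hAB]
      show (⟪Ωn, E A Ωn + E B Ωn⟫_ℂ).re = _
      rw [inner_add_right, Complex.add_re]
    · show (⟪Ωn, E ⊤ Ωn⟫_ℂ).re = 1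
      rw [hre, hcpv.top]
      show ‖Ωn‖ ^ 2 = 1
      rw [hnn, one_pow]
    · show (⟪Ωn, E (sm (q γ) A) Ωn⟫_ℂ).re = (⟪Ωn, E A Ωn⟫_ℂ).re
      rw [← hE.cov γ A, hin (E A) (hE.cm A) (fun h => hcomm h A) γ]

/-- **Independence of the point.** -/
theorem indep (hg : Geo c y₀) (hl : LGeo c ln inc) (hp : PicX π lam W Ω) (hE : Lim π lam W q y₀ E)
    (hz : ZFam π lam W' Ω q c y₀ E δ Q)
    (hd : ∀ p : G, p • y₀ = y₀ → ∀ m, d (c p y₀ • m) = δ p • d m)
    (van : ∀ g : G, g • y₀ ≠ y₀ → ∀ m m', g • ln y₀ m' = ln y₀ m → ∀ C C' : Set (Y × G₀), CO C →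
      CO C' → (∀ z ∈ C, ∀ z' ∈ C', z.1 ≠ z'.1 ∧ ((z'.1, ln z.1 (z.2 • d m)) ∉ inc ∨
        (z.1, ln z'.1 (z'.2 • d m')) ∉ inc)) → π g * Q C' * π g⁻¹ * Q C = 0)
    (ni : ∀ φ : Clopens Y → ℝ, (∀ U, 0 ≤ φ U) → (∀ U V, Disjoint U V → φ (U ⊔ V) = φ U + φ V) →
      φ ⊤ = 1 → (∀ γ U, φ (sm (q γ) U) = φ U) → False)
    (mo : ∀ g : G, g • y₀ ≠ y₀ → Moore {p : G | p • y₀ = y₀ ∧ p • g • y₀ = g • y₀})
    (mx : ∀ g : G, g • y₀ ≠ y₀ → ∀ H : Subgroup G, (∀ p : G, p • y₀ = y₀ → p ∈ H) → g ∈ H → H = ⊤)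
    (g : G) (m m' : D) (hm : g • ln y₀ m' = ln y₀ m) (B : Clopens L) :
    π g * pf Q (sl ln d m') B * π g⁻¹ = pf Q (sl ln d m) B := by
  haveI := hg.t2
  haveI := hg.t2₀
  haveI := hg.cpt
  haveI := hg.td
  haveI := hl.cptL
  haveI := hl.t2L
  haveI := hl.tdL
  by_cases h0 : g • y₀ = y₀
  · rw [F_par hg hl hz hd m' h0]
    rw [hl.eqv, h0] at hm
    rw [hl.inj _ _ _ hm]
  · have hQ := qf hz
    have hQ' := qf_conj hp hz g
    have pr : Pair (Prod.fst : Y × G₀ → Y) (Prod.fst : Y × G₀ → Y) (sl ln d m) (sl ln d m') inc :=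
      { cf := continuous_fst
        cf' := continuous_fst
        cs := sl_cont hl m
        cs' := sl_cont hl m'
        closed := hl.closed
        mem := fun z => hl.mem _ _
        mem' := fun z => hl.mem _ _
        uniq := hl.uniq }
    have hv : Van Q (fun C => π g * Q C * π g⁻¹) fun z z' => z.1 ≠ z'.1 ∧
        ((z'.1, sl ln d m z) ∉ inc ∨ (z.1, sl ln d m' z') ∉ inc) :=
      fun C C' hC hC' h => van g h0 m m' hm C C' hC hC' h
    have key : ∀ A : Clopens Y, E A * (pf Q (sl ln d m) B - π g * pf Q (sl ln d m') B * π g⁻¹) =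
        π g * E A * π g⁻¹ * (pf Q (sl ln d m) B - π g * pf Q (sl ln d m') B * π g⁻¹) := by
      intro A
      have := agree hQ hQ' pr hv A B
      rw [← E_eq hE.cpv hz, pf_pi hp hz g (sl_cont hl m'), pf_pi hp hz g continuous_fst,
        ← E_eq hE.cpv hz] at this
      exact this
    have : pf Q (sl ln d m) B - π g * pf Q (sl ln d m') B * π g⁻¹ = 0 := by
      ext ζ
      refine agr_bot hp hE ni (mo g h0) (mx g h0) fun A => ?_
      exact DFunLike.congr_fun (key A) ζ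
    exact (sub_eq_zero.1 this).symm

/-- **[C-LINE], abstract form.** -/
theorem line_abs (hg : Geo c y₀) (hl : LGeo c ln inc) (hp : PicX π lam W Ω)
    (hE : Lim π lam W q y₀ E) (he : Ext π lam W W' y₀ E) (hz : ZFam π lam W' Ω q c y₀ E δ Q)
    (hd : ∀ p : G, p • y₀ = y₀ → ∀ m, d (c p y₀ • m) = δ p • d m)
    (van : ∀ g : G, g • y₀ ≠ y₀ → ∀ m m', g • ln y₀ m' = ln y₀ m → ∀ C C' : Set (Y × G₀), CO C →
      CO C' → (∀ z ∈ C, ∀ z' ∈ C', z.1 ≠ z'.1 ∧ ((z'.1, ln z.1 (z.2 • d m)) ∉ inc ∨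
        (z.1, ln z'.1 (z'.2 • d m')) ∉ inc)) → π g * Q C' * π g⁻¹ * Q C = 0)
    (ni : ∀ φ : Clopens Y → ℝ, (∀ U, 0 ≤ φ U) → (∀ U V, Disjoint U V → φ (U ⊔ V) = φ U + φ V) →
      φ ⊤ = 1 → (∀ γ U, φ (sm (q γ) U) = φ U) → False)
    (mo : ∀ g : G, g • y₀ ≠ y₀ → Moore {p : G | p • y₀ = y₀ ∧ p • g • y₀ = g • y₀})
    (mx : ∀ g : G, g • y₀ ≠ y₀ → ∀ H : Subgroup G, (∀ p : G, p • y₀ = y₀ → p ∈ H) → g ∈ H → H = ⊤)
    {l₀ : L} (h₀ : (y₀, l₀) ∈ inc) :
    ∃ F : Clopens L → (K →L[ℂ] K), LFam π lam W q y₀ inc l₀ Q F := by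
  haveI := hg.t2
  haveI := hg.t2₀
  obtain ⟨m₀, hm₀⟩ := hl.ex y₀ l₀ h₀
  have hI := indep hg hl hp hE hz hd van ni mo mx
  refine ⟨pf Q (sl ln d m₀), ⟨pf_cpv (qf hz) (sl_cont hl m₀), fun B w hw => ?_,
    fun γ B => F_cov hg hl hz m₀ γ B, fun p hpl B => ?_, fun g hgl T hT B => ?_⟩⟩
  · exact (pf_comm (qf hz) (sl_cont hl m₀) (fun C hC => (hz.cm C hC w (he.sub hw)).symm) B).symm
  · rw [← conj_iff]
    refine hI p m₀ m₀ ?_ B
    rw [hm₀, hpl]
  · have h1 : (y₀, g⁻¹ • l₀) ∈ inc := by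
      have := hl.smul g⁻¹ _ _ hgl
      rwa [inv_smul_smul] at this
    obtain ⟨m', hm'⟩ := hl.ex y₀ _ h1
    have h2 : g • ln y₀ m' = ln y₀ m₀ := by rw [hm', smul_inv_smul, hm₀]
    rw [← hI g m₀ m' h2 B, ← pf_pi hp hz g (sl_cont hl m')]
    exact pf_comm (qf_conj hp hz g) (sl_cont hl m') hT B

end main

end Vale.Agent.P092.TX.H483
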